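-- RD-BASE ab428ab5d21bfe6a4d1220cb89980f69908cb7d1
import Vale.Agent.P028.MathlibUsed
import Vale.Agent.P028.RD.R26.OmtB
import Vale.Agent.P028.RD.H6.Adders
import Vale.Agent.P028.RD.H383.RemX
import Vale.Agent.P028.RD.H758.RowRough
import Vale.Agent.P028.H232.TreeF
import Vale.Agent.P028.RD.R627.FDefs
import Vale.Agent.P028.RD.H279.X1core
attribute [-instance] ProperSMul.toContinuousSMul IsTopologicalTorsor.toContinuousSMul IdemSemiring.toCanonicallyOrderedAdd IdemSemiring.toMulLeftMono IdemSemiring.toMulRightMono AddQuantale.instAddLeftMono AddQuantale.instAddRightMono Quantale.instMulLeftMono Quantale.instMulRightMono FiniteDimensional.rclike_to_real IsScalarTower.complexToReal FiniteDimensional.complexToReal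

/-!
# P028: the rows in terms of the data `PD` of pairs
-/

namespace Vale.P028.SK

open Finset CF RN

variable {g : Cfg}

/-- **the phase of the stages `j ≥ i` with `t < z_j`** -/
theorem phase_of_st (hJ : JsOK g.K g.Js) (hX : g.Js ≤ g.X) {i t q : ℕ} {F : ℚ}
    (i2 : i ≤ nst g) (zt : zs g ≤ t) (h0 : ∃ b, st g i q = some (F, b))
    (h : ∀ j, i ≤ j → j ≤ nst g → t < z g j → ∃ b, st g j q = some (F, b)) :
    ∃ a ∈ NwP g q, a ≤ N g - z g i ∧ N g - t ≤ nxw g q a := by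
  classical
  have hlast : i < nst g + 1 ∧ z g (nst g + 1) ≤ t := ⟨by omega, by rw [z_last hJ hX]; exact zt⟩
  have hex : ∃ s, i < s ∧ z g s ≤ t := ⟨nst g + 1, hlast⟩
  obtain ⟨his, hzs⟩ := Nat.find_spec hex
  have hs : Nat.find hex ≤ nst g + 1 := Nat.find_min' hex hlast
  have hU : Un g i (Nat.find hex) q F := by
    intro j h1 h2
    rcases Nat.eq_or_lt_of_le h1 with h3 | h3
    · rw [← h3]; exact h0
    · refine h j h1 (by omega) ?_
      by_contra hcon
      exact Nat.find_min hex h2 ⟨h3, not_lt.1 hcon⟩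
  obtain ⟨a, ha, a1, a2⟩ := phase_of_Un his hs hU
  exact ⟨a, ha, a1, le_trans (Nat.sub_le_sub_left hzs _) a2⟩

theorem w1_nonneg {c1 c lam s : ℝ} (h1 : 0 ≤ c1) (hc : 0 ≤ c) (hl : 0 ≤ lam) (t B q r p : ℕ) :
    0 ≤ w1 g c1 c lam s t B q r p := by
  have a1 := dd_nonneg (g := g) h1 hc q p
  have a2 := dd_nonneg (g := g) h1 hc r p
  unfold w1
  split_ifs <;> positivity

/-! ### The exponents of the cofactors and the omitted primes -/

section PD

variable {i t q r : ℕ} {n : ℤ} {F G : ℚ} {δ : ℕ → ℕ → ℝ}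

theorem PD.fac_ab (hJ : JsOK g.K g.Js) (hX : g.Js ≤ g.X) (hV : g.V ⊆ Icc 1 (N g))
    (h : PD g i t q r n F G) {p : ℕ} (hp : p.Prime) (hpz : p ≤ z g i) :
    (rcof (z g i) (N g) (kc g q) q r).factorization p =
        q.factorization p - r.factorization p ∧
      (rcof (z g i) (N g) (kc g q) r q).factorization p =
        r.factorization p - q.factorization p := by
  obtain ⟨f1, f2⟩ := rcof_fac hV (zs_le_z hJ hX i) h.hq h.hr h.ta.2.2.1 hp
  rw [if_pos hpz] at f1 f2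
  exact ⟨f1, f2⟩

/-- the cofactors are between `1` and `N` -/
theorem PD.rcof_pos (hJ : JsOK g.K g.Js) (hX : g.Js ≤ g.X) (hV : g.V ⊆ Icc 1 (N g))
    (h : PD g i t q r n F G) :
    (0 < rcof (z g i) (N g) (kc g q) q r ∧ rcof (z g i) (N g) (kc g q) q r ≤ N g) ∧
      (0 < rcof (z g i) (N g) (kc g q) r q ∧ rcof (z g i) (N g) (kc g q) r q ≤ N g) := by
  have hq1 := mem_Icc.1 (hV h.hq)
  have hr1 := mem_Icc.1 (hV h.hr)
  obtain ⟨h1, h2, -, h4, h5⟩ := clean_cofac hV (zs_le_z hJ hX i) h.hq h.hr h.ta.2.2.1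
  refine ⟨⟨h4, ?_⟩, ⟨h5, ?_⟩⟩
  · have h6 : rcof (z g i) (N g) (kc g q) q r ≤ cofac q r :=
      Nat.le_of_dvd (cofac_pos r hq1.1) (by rw [h1]; exact dvd_mul_left _ _)
    exact h6.trans ((cofac_le r hq1.1).trans hq1.2)
  · have h6 : rcof (z g i) (N g) (kc g q) r q ≤ cofac r q :=
      Nat.le_of_dvd (cofac_pos q hr1.1) (by rw [h2]; exact dvd_mul_left _ _)
    exact h6.trans ((cofac_le q hr1.1).trans hr1.2)

/-- the omitted primes `≤ z_i` of `q` -/
theorem PD.mem_UOq (hJ : JsOK g.K g.Js) (hX : g.Js ≤ g.X) (hV : g.V ⊆ Icc 1 (N g))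
    (h : PD g i t q r n F G) (hK : Kd g δ q r n ≠ 0)
    (hlog : (Real.log (CF.KK g i q F)) ^ (3 / 2 : ℝ) ≤ t) {p : ℕ} (hp : p.Prime)
    (hpz : p ≤ z g i) :
    p ∈ UO g δ t (BB g i q r F G) q (rcof (z g i) (N g) (kc g q) q r) ↔
      (t < p ∧ ¬ p ∣ BB g i q r F G ∧ r.factorization p < q.factorization p ∧
        q.factorization p = kc g q p) := by
  classical
  obtain ⟨f1, -⟩ := h.fac_ab hJ hX hV hp hpz
  obtain ⟨⟨a0, -⟩, -⟩ := h.rcof_pos hJ hX hV
  have e := h.omt_eq_own (δ := δ) hJ hX hV hK hlog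
  rw [e, mem_filter]
  constructor
  · rintro ⟨h1, h2, h3, h4⟩
    have h5 := (Nat.Prime.factorization_pos_of_dvd hp a0.ne' (Nat.dvd_of_mem_primeFactors h1))
    exact ⟨h2, h3, by omega, h4⟩
  · rintro ⟨h2, h3, h4, h5⟩
    refine ⟨Nat.mem_primeFactors.2 ⟨hp, Nat.dvd_of_factorization_pos (by omega), a0.ne'⟩,
      h2, h3, h5⟩

/-- the omitted primes `≤ z_i` of `r` -/
theorem PD.mem_UOr (hJ : JsOK g.K g.Js) (hX : g.Js ≤ g.X) (hV : g.V ⊆ Icc 1 (N g))
    (h : PD g i t q r n F G) (hK : Kd g δ q r n ≠ 0)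
    (hlog : (Real.log (CF.KK g i r G)) ^ (3 / 2 : ℝ) ≤ t) {p : ℕ} (hp : p.Prime)
    (hpz : p ≤ z g i) :
    p ∈ UO g δ t (BB g i q r F G) r (rcof (z g i) (N g) (kc g q) r q) ↔
      (t < p ∧ ¬ p ∣ BB g i q r F G ∧ q.factorization p < r.factorization p ∧
        r.factorization p = kc g r p) := by
  have h1 := h.swap.mem_UOq (δ := δ) hJ hX hV (by rw [Kd_swap]; exact hK) hlog hp hpz
  rwa [h.rcof_r hJ hX hV, BB_swap] at h1

/-- the differences of `q` above `r` at the primes in `(t, z_i]` not dividing `B` -/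
theorem PD.dev_q (hJ : JsOK g.K g.Js) (hX : g.Js ≤ g.X) (hV : g.V ⊆ Icc 1 (N g))
    (h : PD g i t q r n F G) (hK : Kd g δ q r n ≠ 0)
    (hlog : (Real.log (CF.KK g i q F)) ^ (3 / 2 : ℝ) ≤ t) {p : ℕ} (hp : p.Prime)
    (htp : t < p) (hpz : p ≤ z g i) (hB : ¬ p ∣ BB g i q r F G)
    (hlt : r.factorization p < q.factorization p) :
    q.factorization p < kc g q p ∨ (q.factorization p = kc g q p ∧ δ q p ≠ 0) := by
  classical
  obtain ⟨f1, -⟩ := h.fac_ab hJ hX hV hp hpz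
  obtain ⟨⟨a0, -⟩, -⟩ := h.rcof_pos hJ hX hV
  by_cases hU : p ∈ UO g δ t (BB g i q r F G) q (rcof (z g i) (N g) (kc g q) q r)
  · exact Or.inr ⟨((h.mem_UOq hJ hX hV hK hlog hp hpz).1 hU).2.2.2, (mem_UO.1 hU).2.2.2.2⟩
  · left
    have h1 : p ∣ rst g δ t (BB g i q r F G) q (rcof (z g i) (N g) (kc g q) q r) := by
      refine Nat.dvd_of_factorization_pos ?_
      rw [(omt_rst_fac g δ t _ q a0 p).2, if_neg hU, f1]
      omega
    rcases h.alive_q hJ hX hV hK hlog hp htp h1 with h2 | h2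
    · exact absurd h2 hB
    · exact h2.2

theorem PD.dev_r (hJ : JsOK g.K g.Js) (hX : g.Js ≤ g.X) (hV : g.V ⊆ Icc 1 (N g))
    (h : PD g i t q r n F G) (hK : Kd g δ q r n ≠ 0)
    (hlog : (Real.log (CF.KK g i r G)) ^ (3 / 2 : ℝ) ≤ t) {p : ℕ} (hp : p.Prime)
    (htp : t < p) (hpz : p ≤ z g i) (hB : ¬ p ∣ BB g i q r F G)
    (hlt : q.factorization p < r.factorization p) :
    r.factorization p < kc g r p ∨ (r.factorization p = kc g r p ∧ δ r p ≠ 0) :=
  h.swap.dev_q hJ hX hV (by rw [Kd_swap]; exact hK) hlog hp htp hpz (by rwa [BB_swap]) hlt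

end PD

/-! ### The weight of a pair as a product -/

theorem lowp_prod {x n M : ℕ} (hn : 0 < n) (hM : n ≤ M) :
    lowp x n = ∏ p ∈ (prN M).filter (fun p => 0 < p ∧ p ≤ x), p ^ n.factorization p := by
  unfold lowp
  refine prod_subset ?_ ?_
  · intro p hp
    obtain ⟨h1, h2⟩ := mem_filter.1 hp
    have h3 := Nat.mem_primeFactors.1 h1
    exact mem_filter.2 ⟨mem_filter.2 ⟨mem_Icc.2 ⟨h3.1.pos, (Nat.le_of_dvd hn h3.2.1).trans hM⟩,
      h3.1⟩, h3.1.pos, h2⟩
  · intro p hp hnot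
    obtain ⟨h1, h2, h3⟩ := mem_filter.1 hp
    have hpp := (mem_filter.1 h1).2
    have : n.factorization p = 0 := by
      by_contra hne
      exact hnot (mem_filter.2 ⟨Nat.mem_primeFactors.2
        ⟨hpp, Nat.dvd_of_factorization_pos hne, hn.ne'⟩, h3⟩)
    rw [this, pow_zero]

theorem PD.rowW_eq (hJ : JsOK g.K g.Js) (hX : g.Js ≤ g.X) (hV : g.V ⊆ Icc 1 (N g))
    {c1 c lam s : ℝ} {i x t q r : ℕ} {n : ℤ} {F G : ℚ}
    (h : PD g i t q r n F G) (hK : Kd g (dd g c1 c) q r n ≠ 0) (hxz : x ≤ z g i)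
    (lq : (Real.log (CF.KK g i q F)) ^ (3 / 2 : ℝ) ≤ t)
    (lr : (Real.log (CF.KK g i r G)) ^ (3 / 2 : ℝ) ≤ t) :
    rowW g (dd g c1 c) lam s x t (BB g i q r F G) q r (rcof (z g i) (N g) (kc g q) q r)
        (rcof (z g i) (N g) (kc g q) r q) =
      ∏ p ∈ (prN (N g)).filter (fun p => 0 < p ∧ p ≤ x),
        w1 g c1 c lam s t (BB g i q r F G) q r p := by
  classical
  obtain ⟨⟨a0, aN⟩, ⟨b0, bN⟩⟩ := h.rcof_pos hJ hX hV
  set a := rcof (z g i) (N g) (kc g q) q r with ha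
  set b := rcof (z g i) (N g) (kc g q) r q with hb
  set B := BB g i q r F G with hBd
  set P := (prN (N g)).filter (fun p => 0 < p ∧ p ≤ x) with hP
  have hPp : ∀ p ∈ P, p.Prime ∧ p ≤ x := fun p hp =>
    ⟨(mem_filter.1 (mem_filter.1 hp).1).2, (mem_filter.1 hp).2.2⟩
  have hsub : ∀ (q r a : ℕ), 0 < a → a ≤ N g → (UO g (dd g c1 c) t B q a).filter
      (fun p => p ≤ x) = P.filter (fun p => p ∈ UO g (dd g c1 c) t B q a) := by
    intro q r a h0 hN
    ext p
    constructor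
    · intro hp
      obtain ⟨h1, h2⟩ := mem_filter.1 hp
      have h3 := Nat.mem_primeFactors.1 (mem_UO.1 h1).1
      exact mem_filter.2 ⟨mem_filter.2 ⟨mem_filter.2 ⟨mem_Icc.2 ⟨h3.1.pos,
        (Nat.le_of_dvd h0 h3.2.1).trans hN⟩, h3.1⟩, h3.1.pos, h2⟩, h1⟩
    · intro hp
      obtain ⟨h1, h2⟩ := mem_filter.1 hp
      exact mem_filter.2 ⟨h2, (hPp p h1).2⟩
  have ra0 := rst_pos g (dd g c1 c) t B q a0
  have rb0 := rst_pos g (dd g c1 c) t B r b0
  have raN : rst g (dd g c1 c) t B q a ≤ N g := by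
    exact (Nat.le_of_dvd a0 (Dvd.intro_left _ (omt_mul_rst g (dd g c1 c) t B q a0.ne'))).trans aN
  have rbN : rst g (dd g c1 c) t B r b ≤ N g := by
    exact (Nat.le_of_dvd b0 (Dvd.intro_left _ (omt_mul_rst g (dd g c1 c) t B r b0.ne'))).trans bN
  have E1 : ∏ p ∈ (UO g (dd g c1 c) t B q a).filter (fun p => p ≤ x),
      (lam * dd g c1 c q p * ((p ^ a.factorization p : ℕ) : ℝ) ^ (-(1 - s))) =
      ∏ p ∈ P, (if p ∈ UO g (dd g c1 c) t B q a then
        (lam * dd g c1 c q p * ((p ^ a.factorization p : ℕ) : ℝ) ^ (-(1 - s))) else 1) := by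
    rw [hsub q r a a0 aN, prod_filter]
  have E2 : ∏ p ∈ (UO g (dd g c1 c) t B r b).filter (fun p => p ≤ x), (lam * dd g c1 c r p) =
      ∏ p ∈ P, (if p ∈ UO g (dd g c1 c) t B r b then (lam * dd g c1 c r p) else 1) := by
    rw [hsub r q b b0 bN, prod_filter]
  have E3 : (((lowp x (rst g (dd g c1 c) t B q a) : ℕ) : ℝ) *
      ((lowp x (rst g (dd g c1 c) t B r b) : ℕ) : ℝ)) ^ (-(5 / 12) : ℝ) =
      ∏ p ∈ P, (((p ^ ((rst g (dd g c1 c) t B q a).factorization p +
        (rst g (dd g c1 c) t B r b).factorization p) : ℕ) : ℝ)) ^ (-(5 / 12) : ℝ) := by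
    rw [lowp_prod ra0 raN, lowp_prod rb0 rbN, ← Nat.cast_mul, ← prod_mul_distrib,
      Real.finsetProd_rpow _ _ (fun p _ => by positivity), ← Nat.cast_prod]
    congr 2
    exact prod_congr rfl fun p _ => (pow_add _ _ _).symm
  unfold rowW
  rw [E1, E2, E3, ← prod_mul_distrib, ← prod_mul_distrib]
  refine prod_congr rfl fun p hp => ?_
  obtain ⟨hpp, hpx⟩ := hPp p hp
  have hpz := hpx.trans hxz
  obtain ⟨f1, f2⟩ := h.fac_ab hJ hX hV hpp hpz
  rw [← ha] at f1
  rw [← hb] at f2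
  have u1 := h.mem_UOq (δ := dd g c1 c) hJ hX hV hK lq hpp hpz
  have u2 := h.mem_UOr (δ := dd g c1 c) hJ hX hV hK lr hpp hpz
  rw [← ha, ← hBd] at u1
  rw [← hb, ← hBd] at u2
  have g1 := (omt_rst_fac g (dd g c1 c) t B q a0 p).2
  have g2 := (omt_rst_fac g (dd g c1 c) t B r b0 p).2
  unfold w1
  by_cases c1' : t < p ∧ ¬ p ∣ B ∧ r.factorization p < q.factorization p ∧
      q.factorization p = kc g q p
  · have n2 : ¬ (p ∈ UO g (dd g c1 c) t B r b) := fun hcon => by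
      have := (u2.1 hcon).2.2.1
      omega
    rw [if_pos (u1.2 c1'), if_neg n2, if_pos c1', g1, g2, if_pos (u1.2 c1'), if_neg n2, f2, f1]
    have e1 : r.factorization p - q.factorization p = 0 := by omega
    rw [e1]
    simp
  · by_cases c2' : t < p ∧ ¬ p ∣ B ∧ q.factorization p < r.factorization p ∧
        r.factorization p = kc g r p
    · have n1 : ¬ (p ∈ UO g (dd g c1 c) t B q a) := fun hcon => c1' (u1.1 hcon)
      rw [if_neg n1, if_pos (u2.2 c2'), if_neg c1', if_pos c2', g1, g2, if_neg n1,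
        if_pos (u2.2 c2'), f1]
      have e1 : q.factorization p - r.factorization p = 0 := by omega
      rw [e1]
      simp
    · have n1 : ¬ (p ∈ UO g (dd g c1 c) t B q a) := fun hcon => c1' (u1.1 hcon)
      have n2 : ¬ (p ∈ UO g (dd g c1 c) t B r b) := fun hcon => c2' (u2.1 hcon)
      rw [if_neg n1, if_neg n2, if_neg c1', if_neg c2', g1, g2, if_neg n1, if_neg n2, f1, f2,
        one_mul, one_mul]

/-! ### The rows -/

/-- the core row bound (all the primes `≤ x`) -/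
def X1C (g : Cfg) (c1 c lam s K : ℝ) : Prop :=
  ∀ (i q t x B : ℕ) (S : Finset ℕ), i ≤ nst g → zs g ≤ t → t ≤ x → x ≤ z g i →
    (x : ℝ) ^ s ≤ Real.exp 8 → q ∈ V1 g → 0 < B →
    (∀ r ∈ S, r ∈ V1 g ∧ Clean g (z g i) q r) →
    (∀ r ∈ S, ∀ r' ∈ S, ∀ p, p.Prime → x < p → r.factorization p = r'.factorization p) →
    (∀ r ∈ S, ∀ p, p.Prime → t < p → p ≤ x → ¬ p ∣ B → r.factorization p < q.factorization p →
      q.factorization p < kc g q p ∨ (q.factorization p = kc g q p ∧ dd g c1 c q p ≠ 0)) →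
    (∀ r ∈ S, ∀ p, p.Prime → t < p → p ≤ x → ¬ p ∣ B → q.factorization p < r.factorization p →
      r.factorization p < kc g r p ∨ (r.factorization p = kc g r p ∧ dd g c1 c r p ≠ 0)) →
    (∀ r ∈ S, ∃ a ∈ NwP g r, a ≤ N g - x ∧ N g - t ≤ nxw g r a) →
    (∃ a ∈ NwP g q, a ≤ N g - x ∧ N g - t ≤ nxw g q a) →
    ∑ r ∈ S, ∏ p ∈ (prN (N g)).filter (fun p => 0 < p ∧ p ≤ x), w1 g c1 c lam s t B q r p ≤
      Real.exp (K + 16 * (t : ℝ) ^ (7 / 12 : ℝ) + 32 * (Real.log B) ^ (7 / 12 : ℝ))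

theorem BB_pos (i q r : ℕ) (F G : ℚ) : 0 < BB g i q r F G := Nat.mul_pos (Rat.den_pos _) (Rat.den_pos _)

/-- **the row with the cut `x`**, sum of products over the primes `≤ x` -/
theorem RowHyp.sum_w1 (hJ : JsOK g.K g.Js) (hX : g.Js ≤ g.X) (hV : g.V ⊆ Icc 1 (N g))
    {c1 c lam s K : ℝ} (hc : X1C g c1 c lam s K) {i x t q : ℕ} {F G : ℚ} {B : ℕ}
    {S : Finset ℕ} {n : ℕ → ℤ} (h : RowHyp g c1 c i x t q F G B S n)
    (hxs : (x : ℝ) ^ s ≤ Real.exp 8) :
    ∑ r ∈ S, ∏ p ∈ (prN (N g)).filter (fun p => 0 < p ∧ p ≤ x), w1 g c1 c lam s t B q r p ≤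
      Real.exp (K + 16 * (t : ℝ) ^ (7 / 12 : ℝ) + 32 * (Real.log B) ^ (7 / 12 : ℝ)) := by
  rcases S.eq_empty_or_nonempty with rfl | ⟨r0, hr0⟩
  · rw [sum_empty]
    exact (Real.exp_pos _).le
  have hB0 : 0 < B := by rw [← h.bb r0 hr0]; exact BB_pos _ _ _ _ _
  have hpos : N g - z g i ≤ N g - x := Nat.sub_le_sub_left h.xz _
  refine hc i q t x B S h.i2 h.zt h.tx h.xz hxs h.hq hB0 (fun r hr => ⟨h.sub hr, (h.pd r hr).ta.2.2.1⟩)
    (fun r hr r' hr' p _ hp => h.lab r hr r' hr' p hp) ?_ ?_ ?_ ?_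
  · intro r hr p hp h1 h2 h3 h4
    rw [← h.bb r hr] at h3
    exact (h.pd r hr).dev_q hJ hX hV (h.kd r hr) h.lq hp h1 (h2.trans h.xz) h3 h4
  · intro r hr p hp h1 h2 h3 h4
    rw [← h.bb r hr] at h3
    exact (h.pd r hr).dev_r hJ hX hV (h.kd r hr) (h.lr r hr) hp h1 (h2.trans h.xz) h3 h4
  · intro r hr
    obtain ⟨a, ha, a1, a2⟩ := phase_of_st hJ hX h.i2 h.zt (h.pd r hr).fr (h.un r hr)
    exact ⟨a, ha, a1.trans hpos, a2⟩
  · obtain ⟨a, ha, a1, a2⟩ := phase_of_st hJ hX h.i2 h.zt (h.pd r0 hr0).fq h.unq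
    exact ⟨a, ha, a1.trans hpos, a2⟩

/-- **the row with the cut `x`** (627's `RowX`) -/
theorem RowHyp.sum_rowW (hJ : JsOK g.K g.Js) (hX : g.Js ≤ g.X) (hV : g.V ⊆ Icc 1 (N g))
    {c1 c lam s K : ℝ} (hc : X1C g c1 c lam s K) {i x t q : ℕ} {F G : ℚ} {B : ℕ}
    {S : Finset ℕ} {n : ℕ → ℤ} (h : RowHyp g c1 c i x t q F G B S n)
    (hxs : (x : ℝ) ^ s ≤ Real.exp 8) :
    ∑ r ∈ S, rowW g (dd g c1 c) lam s x t B q r (rcof (z g i) (N g) (kc g q) q r)
        (rcof (z g i) (N g) (kc g q) r q) ≤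
      Real.exp (K + 16 * (t : ℝ) ^ (7 / 12 : ℝ) + 32 * (Real.log B) ^ (7 / 12 : ℝ)) := by
  rcases S.eq_empty_or_nonempty with rfl | ⟨r0, hr0⟩
  · rw [sum_empty]
    exact (Real.exp_pos _).le
  have hB0 : 0 < B := by rw [← h.bb r0 hr0]; exact BB_pos _ _ _ _ _
  have h1 := h.sum_w1 hJ hX hV hc hxs
  have h2 : ∑ r ∈ S, rowW g (dd g c1 c) lam s x t B q r (rcof (z g i) (N g) (kc g q) q r)
        (rcof (z g i) (N g) (kc g q) r q) =
      ∑ r ∈ S, ∏ p ∈ (prN (N g)).filter (fun p => 0 < p ∧ p ≤ x),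
        w1 g c1 c lam s t B q r p := by
    refine sum_congr rfl fun r hr => ?_
    have := (h.pd r hr).rowW_eq (lam := lam) (s := s) hJ hX hV (h.kd r hr) h.xz h.lq (h.lr r hr)
    rw [h.bb r hr] at this
    exact this
  rw [h2]
  exact h1

/-! ### The row of a fixed deficit -/

/-- the omitted primes are at most `z_i` -/
theorem PD.UOq_le (hJ : JsOK g.K g.Js) (hX : g.Js ≤ g.X) (hV : g.V ⊆ Icc 1 (N g))
    {i t q r : ℕ} {n : ℤ} {F G : ℚ} {δ : ℕ → ℕ → ℝ} (h : PD g i t q r n F G) {p : ℕ}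
    (hp : p ∈ UO g δ t (BB g i q r F G) q (rcof (z g i) (N g) (kc g q) q r)) : p ≤ z g i :=
  (mem_Lks.1 (h.leak_q hJ hX hV hp)).2.1

theorem PD.UOr_le (hJ : JsOK g.K g.Js) (hX : g.Js ≤ g.X) (hV : g.V ⊆ Icc 1 (N g))
    {i t q r : ℕ} {n : ℤ} {F G : ℚ} {δ : ℕ → ℕ → ℝ} (h : PD g i t q r n F G) {p : ℕ}
    (hp : p ∈ UO g δ t (BB g i q r F G) r (rcof (z g i) (N g) (kc g q) r q)) : p ≤ z g i :=
  (mem_Lks.1 (h.leak_r hJ hX hV hp)).2.1

theorem inv_factor_le11 {p : ℕ} (hp : 11 ≤ p) : (1 - 1 / (p : ℝ))⁻¹ ≤ 11 / 10 := by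
  have h1 : (11 : ℝ) ≤ p := by exact_mod_cast hp
  have h2 : (1 : ℝ) / p ≤ 1 / 11 := one_div_le_one_div_of_le (by norm_num) h1
  have h3 : (10 : ℝ) / 11 ≤ 1 - 1 / (p : ℝ) := by linarith
  calc (1 - 1 / (p : ℝ))⁻¹ ≤ (10 / 11 : ℝ)⁻¹ := inv_anti₀ (by norm_num) h3
    _ = 11 / 10 := by norm_num

/-- the weight of the whole pair -/
theorem PD.rowM_le (hJ : JsOK g.K g.Js) (hX : g.Js ≤ g.X) (hV : g.V ⊆ Icc 1 (N g))
    {c1 c : ℝ} (h1 : 0 ≤ c1) (hc : 0 ≤ c) (h11 : 11 ≤ zs g)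
    {i t q r : ℕ} {n : ℤ} {F G : ℚ}
    (h : PD g i t q r n F G) (hK : Kd g (dd g c1 c) q r n ≠ 0)
    (lq : (Real.log (CF.KK g i q F)) ^ (3 / 2 : ℝ) ≤ t)
    (lr : (Real.log (CF.KK g i r G)) ^ (3 / 2 : ℝ) ≤ t) :
    omw g (dd g c1 c) t (BB g i q r F G) q (rcof (z g i) (N g) (kc g q) q r) *
        (omt g (dd g c1 c) t (BB g i q r F G) q (rcof (z g i) (N g) (kc g q) q r) : ℝ)⁻¹ *
        omd g (dd g c1 c) t (BB g i q r F G) r (rcof (z g i) (N g) (kc g q) r q) *
        ((rst g (dd g c1 c) t (BB g i q r F G) q (rcof (z g i) (N g) (kc g q) q r) : ℝ) *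
          rst g (dd g c1 c) t (BB g i q r F G) r (rcof (z g i) (N g) (kc g q) r q)) ^
            (-(5 / 12) : ℝ) ≤
      (∏ p ∈ (prN (N g)).filter (fun p => 0 < p ∧ p ≤ z g i),
        w1 g c1 c (11 / 10) 0 t (BB g i q r F G) q r p) *
      ∏ p ∈ (prN (N g)).filter (fun p => z g i < p),
        (((p ^ ((rcof (z g i) (N g) (kc g q) q r).factorization p +
          (rcof (z g i) (N g) (kc g q) r q).factorization p) : ℕ)) : ℝ) ^ (-(5 / 12) : ℝ) := by
  classical
  have e := h.rowW_eq (lam := 11 / 10) (s := 0) hJ hX hV hK le_rfl lq lr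
  rw [← e]
  have hUq : ∀ p ∈ UO g (dd g c1 c) t (BB g i q r F G) q (rcof (z g i) (N g) (kc g q) q r),
      p ≤ z g i := fun p hp => h.UOq_le hJ hX hV hp
  have hUr : ∀ p ∈ UO g (dd g c1 c) t (BB g i q r F G) r (rcof (z g i) (N g) (kc g q) r q),
      p ≤ z g i := fun p hp => h.UOr_le hJ hX hV hp
  obtain ⟨⟨a0, aN⟩, ⟨b0, bN⟩⟩ := h.rcof_pos hJ hX hV
  set a := rcof (z g i) (N g) (kc g q) q r with ha
  set b := rcof (z g i) (N g) (kc g q) r q with hb
  set B := BB g i q r F G with hBd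
  set δ := dd g c1 c with hδ
  have hd : ∀ q p, 0 ≤ δ q p := fun q p => dd_nonneg h1 hc q p
  have ra0 := rst_pos g δ t B q a0
  have rb0 := rst_pos g δ t B r b0
  have raN : rst g δ t B q a ≤ N g := by
    exact (Nat.le_of_dvd a0 (Dvd.intro_left _ (omt_mul_rst g δ t B q a0.ne'))).trans aN
  have rbN : rst g δ t B r b ≤ N g := by
    exact (Nat.le_of_dvd b0 (Dvd.intro_left _ (omt_mul_rst g δ t B r b0.ne'))).trans bN
  -- the omitted part of `q`
  have A1 : omw g δ t B q a * (omt g δ t B q a : ℝ)⁻¹ ≤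
      ∏ p ∈ (UO g δ t B q a).filter (fun p => p ≤ z g i),
        (11 / 10 * δ q p * ((p ^ a.factorization p : ℕ) : ℝ) ^ (-(1 - 0) : ℝ)) := by
    rw [filter_true_of_mem hUq, omt_eq]
    unfold omw pt
    push_cast
    rw [← prod_inv_distrib, ← prod_mul_distrib]
    refine prod_le_prod (fun p hp => ?_) fun p hp => ?_
    · have hp0 := (UO_prime hp).pos
      exact mul_nonneg (mul_nonneg (zero_le_one.trans (one_le_inv_factor (UO_prime hp)))
        (hd q p)) (by positivity)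
    · have hpt := (mem_UO.1 hp).2.1
      have hp11 : 11 ≤ p := by
        have := h.zt
        omega
      have h3 := inv_factor_le11 hp11
      rw [show (-(1 - 0) : ℝ) = -1 by norm_num, Real.rpow_neg_one]
      exact mul_le_mul_of_nonneg_right (mul_le_mul_of_nonneg_right h3 (hd q p)) (by positivity)
  have A2 : omd g δ t B r b ≤
      ∏ p ∈ (UO g δ t B r b).filter (fun p => p ≤ z g i), (11 / 10 * δ r p) := by
    rw [filter_true_of_mem hUr]
    unfold omd
    refine prod_le_prod (fun p _ => hd r p) fun p _ => ?_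
    have := hd r p
    linarith
  have A3 : ((rst g δ t B q a : ℝ) * rst g δ t B r b) ^ (-(5 / 12) : ℝ) =
      (((lowp (z g i) (rst g δ t B q a) : ℕ) : ℝ) * ((lowp (z g i) (rst g δ t B r b) : ℕ) : ℝ)) ^
      (-(5 / 12) : ℝ) * ∏ p ∈ (prN (N g)).filter (fun p => z g i < p),
        (((p ^ (a.factorization p + b.factorization p) : ℕ)) : ℝ) ^ (-(5 / 12) : ℝ) := by
    have k1 : ∀ (u : ℕ), 0 < u → u ≤ N g → u = lowp (z g i) u *
        ∏ p ∈ (prN (N g)).filter (fun p => z g i < p), p ^ u.factorization p := by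
      intro u hu huN
      rw [lowp_prod hu huN]
      have e1 : (prN (N g)).filter (fun p => z g i < p) =
          (prN (N g)).filter (fun p => ¬ (0 < p ∧ p ≤ z g i)) := by
        refine filter_congr fun p hp => ?_
        have := (mem_filter.1 hp).2.pos
        constructor
        · rintro h1 ⟨-, h2⟩
          omega
        · intro h1
          by_contra h2
          exact h1 ⟨this, by omega⟩
      rw [e1, prod_filter_mul_prod_filter_not]
      exact (xc1_prod hu huN).symm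
    have k2 : ∀ p ∈ (prN (N g)).filter (fun p => z g i < p),
        (rst g δ t B q a).factorization p = a.factorization p := by
      intro p hp
      rw [(omt_rst_fac g δ t B q a0 p).2, if_neg]
      intro hcon
      have := hUq p hcon
      have := (mem_filter.1 hp).2
      omega
    have k3 : ∀ p ∈ (prN (N g)).filter (fun p => z g i < p),
        (rst g δ t B r b).factorization p = b.factorization p := by
      intro p hp
      rw [(omt_rst_fac g δ t B r b0 p).2, if_neg]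
      intro hcon
      have := hUr p hcon
      have := (mem_filter.1 hp).2
      omega
    have k4 : ((rst g δ t B q a : ℝ) * rst g δ t B r b) =
        (((lowp (z g i) (rst g δ t B q a) : ℕ) : ℝ) * ((lowp (z g i) (rst g δ t B r b) : ℕ) : ℝ)) *
        ((∏ p ∈ (prN (N g)).filter (fun p => z g i < p),
          p ^ (a.factorization p + b.factorization p) : ℕ) : ℝ) := by
      have k5 : rst g δ t B q a * rst g δ t B r b =
          (lowp (z g i) (rst g δ t B q a) * lowp (z g i) (rst g δ t B r b)) *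
          ∏ p ∈ (prN (N g)).filter (fun p => z g i < p),
            p ^ (a.factorization p + b.factorization p) := by
        conv_lhs => rw [k1 _ ra0 raN, k1 _ rb0 rbN]
        rw [prod_congr rfl fun p hp => by rw [k2 p hp], prod_congr (f := fun p =>
          p ^ (rst g δ t B r b).factorization p) rfl fun p hp => by rw [k3 p hp]]
        rw [prod_congr (f := fun p => p ^ (a.factorization p + b.factorization p)) rfl
          fun p _ => pow_add _ _ _, prod_mul_distrib]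
        ring
      exact_mod_cast k5
    rw [k4, Real.mul_rpow (by positivity) (by positivity)]
    congr 1
    rw [Nat.cast_prod, ← Real.finsetProd_rpow _ _ (fun p _ => by positivity)]
  unfold rowW
  rw [A3]
  have hL : 0 ≤ (((lowp (z g i) (rst g δ t B q a) : ℕ) : ℝ) *
      ((lowp (z g i) (rst g δ t B r b) : ℕ) : ℝ)) ^ (-(5 / 12) : ℝ) := by positivity
  have hH : 0 ≤ ∏ p ∈ (prN (N g)).filter (fun p => z g i < p),
        (((p ^ (a.factorization p + b.factorization p) : ℕ)) : ℝ) ^ (-(5 / 12) : ℝ) :=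
    prod_nonneg fun p _ => by positivity
  have hA0 : 0 ≤ ∏ p ∈ (UO g δ t B q a).filter (fun p => p ≤ z g i),
        (11 / 10 * δ q p * ((p ^ a.factorization p : ℕ) : ℝ) ^ (-(1 - 0) : ℝ)) :=
    prod_nonneg fun p _ => mul_nonneg (mul_nonneg (by norm_num) (hd q p)) (by positivity)
  have h7 : omw g δ t B q a * (omt g δ t B q a : ℝ)⁻¹ * omd g δ t B r b ≤
      (∏ p ∈ (UO g δ t B q a).filter (fun p => p ≤ z g i),
        (11 / 10 * δ q p * ((p ^ a.factorization p : ℕ) : ℝ) ^ (-(1 - 0) : ℝ))) *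
      ∏ p ∈ (UO g δ t B r b).filter (fun p => p ≤ z g i), (11 / 10 * δ r p) :=
    mul_le_mul A1 A2 (prod_nonneg fun p _ => hd r p) hA0
  calc _ ≤ _ := mul_le_mul_of_nonneg_right h7 (mul_nonneg hL hH)
    _ = _ := by ring

/-- the row of a fixed deficit, for a threshold `t ≤ z_i` -/
theorem rowM_small (hJ : JsOK g.K g.Js) (hX : g.Js ≤ g.X) (hV : g.V ⊆ Icc 1 (N g))
    {c1 c K : ℝ} (h1 : 0 ≤ c1) (hc : 0 ≤ c) (h11 : 11 ≤ zs g)
    (hcore : X1C g c1 c (11 / 10) 0 K)
    {i t q m B : ℕ} {F G : ℚ} {S : Finset ℕ} {n : ℕ → ℤ}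
    (i2 : i ≤ nst g) (zt : zs g ≤ t) (tz : t ≤ z g i) (hq : q ∈ V1 g)
    (sub : S ⊆ V1 g) (pd : ∀ r ∈ S, PD g i t q r (n r) F G)
    (kd : ∀ r ∈ S, Kd g (dd g c1 c) q r (n r) ≠ 0)
    (lq : (Real.log (CF.KK g i q F)) ^ (3 / 2 : ℝ) ≤ t)
    (lr : ∀ r ∈ S, (Real.log (CF.KK g i r G)) ^ (3 / 2 : ℝ) ≤ t)
    (unq : ∀ j, i ≤ j → j ≤ nst g → t < z g j → ∃ b, st g j q = some (F, b))
    (un : ∀ r ∈ S, ∀ j, i ≤ j → j ≤ nst g → t < z g j → ∃ b, st g j r = some (G, b))
    (bb : ∀ r ∈ S, BB g i q r F G = B) (hm : ∀ r ∈ S, M g i r = m) :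
    ∑ r ∈ S, omw g (dd g c1 c) t (BB g i q r F G) q (rcof (z g i) (N g) (kc g q) q r) *
        (omt g (dd g c1 c) t (BB g i q r F G) q (rcof (z g i) (N g) (kc g q) q r) : ℝ)⁻¹ *
        omd g (dd g c1 c) t (BB g i q r F G) r (rcof (z g i) (N g) (kc g q) r q) *
        ((rst g (dd g c1 c) t (BB g i q r F G) q (rcof (z g i) (N g) (kc g q) q r) : ℝ) *
          rst g (dd g c1 c) t (BB g i q r F G) r (rcof (z g i) (N g) (kc g q) r q)) ^
            (-(5 / 12) : ℝ) ≤
      Real.exp (K + 16 * (t : ℝ) ^ (7 / 12 : ℝ) + 64 * (Real.log B) ^ (7 / 12 : ℝ)) := by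
  classical
  rcases S.eq_empty_or_nonempty with rfl | ⟨r0, hr0⟩
  · rw [sum_empty]
    exact (Real.exp_pos _).le
  have hB0 : 0 < B := by rw [← bb r0 hr0]; exact BB_pos _ _ _ _ _
  have hz := zs_le_z hJ hX i
  set Y : ℝ := Real.exp (K + 16 * (t : ℝ) ^ (7 / 12 : ℝ) +
        32 * (Real.log B) ^ (7 / 12 : ℝ)) with hY
  have hY0 : 0 < Y := Real.exp_pos _
  set P : Finset ℕ := (prN (N g)).filter (fun p => z g i < p) with hP
  set W : ℕ → ℕ → ℝ := fun p r => (((p ^ (((r.factorization p) - ex0 g i q m p) +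
    (ex0 g i q m p - (r.factorization p))) : ℕ)) : ℝ) ^ (-(5 / 12) : ℝ) with hW
  set X : ℕ → ℕ → ℝ := fun p _ => if p ∣ B then 8 * (p : ℝ) ^ (-(5 / 12) : ℝ) else 0 with hXd
  set H : ℕ → ℝ := fun r => ∏ p ∈ (prN (N g)).filter (fun p => 0 < p ∧ p ≤ z g i),
    w1 g c1 c (11 / 10) 0 t B q r p with hH
  have hPp : ∀ p ∈ P, p.Prime ∧ z g i < p ∧ p ≤ N g := fun p hp =>
    ⟨(mem_filter.1 (mem_filter.1 hp).1).2, (mem_filter.1 hp).2,
      (mem_Icc.1 (mem_filter.1 (mem_filter.1 hp).1).1).2⟩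
  have hH0 : ∀ r, 0 ≤ H r := fun r => prod_nonneg fun p _ =>
    w1_nonneg h1 hc (by norm_num) t B q r p
  have hX0 : ∀ p r, 0 ≤ X p r := by
    intro p r
    rw [hXd]
    dsimp only
    split_ifs
    · positivity
    · exact le_rfl
  -- the exponents above `z_i`
  have hexp : ∀ r ∈ S, ∀ p ∈ P, (rcof (z g i) (N g) (kc g q) q r).factorization p +
      (rcof (z g i) (N g) (kc g q) r q).factorization p =
        ((r.factorization p) - ex0 g i q m p) + (ex0 g i q m p - (r.factorization p)) := by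
    intro r hr p hp
    obtain ⟨hpp, hzp, hpN⟩ := hPp p hp
    have hD := pd r hr
    obtain ⟨f1, f2⟩ := rcof_fac hV hz hD.hq hD.hr hD.ta.2.2.1 hpp
    obtain ⟨hcell, hcr⟩ := clean_cross hV hz hD.hq hD.hr hD.ta.2.2.1
    rw [if_neg (by omega)] at f1 f2
    have m1 : (M g i r).factorization p = if p ∈ PO (z g i) (N g) then
      kc g r p - r.factorization p else 0 := od_fac _ _ _ _ _
    rw [hm r hr, if_pos (mem_PO.2 ⟨hpp, hzp, hpN⟩), kc_congr hcell hzp] at m1
    have h7 := hcr p hpp hzp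
    rw [f1, f2]
    unfold ex0
    rw [if_neg (by omega), m1]
    omega
  -- a prime not dividing `B` divides no cofactor
  have hdet : ∀ r ∈ S, ∀ p ∈ P, ¬ p ∣ B → r.factorization p = ex0 g i q m p := by
    intro r hr p hp hpB
    obtain ⟨hpp, hzp, hpN⟩ := hPp p hp
    have hD := pd r hr
    obtain ⟨⟨a0, -⟩, ⟨b0, -⟩⟩ := hD.rcof_pos hJ hX hV
    have htp : t < p := by omega
    have e1 := hexp r hr p hp
    have n1 : (rcof (z g i) (N g) (kc g q) q r).factorization p = 0 := by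
      by_contra hne
      have hU : p ∉ UO g (dd g c1 c) t (BB g i q r F G) q
          (rcof (z g i) (N g) (kc g q) q r) := fun hcon => by
        have := hD.UOq_le hJ hX hV hcon
        omega
      have h2 : p ∣ rst g (dd g c1 c) t (BB g i q r F G) q
          (rcof (z g i) (N g) (kc g q) q r) := by
        refine Nat.dvd_of_factorization_pos ?_
        rw [(omt_rst_fac g _ t _ q a0 p).2, if_neg hU]
        exact hne
      rcases hD.alive_q hJ hX hV (kd r hr) lq hpp htp h2 with h3 | h3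
      · rw [bb r hr] at h3
        exact hpB h3
      · omega
    have n2 : (rcof (z g i) (N g) (kc g q) r q).factorization p = 0 := by
      by_contra hne
      have hU : p ∉ UO g (dd g c1 c) t (BB g i q r F G) r
          (rcof (z g i) (N g) (kc g q) r q) := fun hcon => by
        have := hD.UOr_le hJ hX hV hcon
        omega
      have h2 : p ∣ rst g (dd g c1 c) t (BB g i q r F G) r
          (rcof (z g i) (N g) (kc g q) r q) := by
        refine Nat.dvd_of_factorization_pos ?_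
        rw [(omt_rst_fac g _ t _ r b0 p).2, if_neg hU]
        exact hne
      rcases hD.alive_r hJ hX hV (kd r hr) (lr r hr) hpp htp h2 with h3 | h3
      · rw [bb r hr] at h3
        exact hpB h3
      · omega
    omega
  -- the tree above `z_i`
  have htree := Db.tree_fib (e := fun p r => r.factorization p) (w := W) (X := X) (h := H)
    (K := Y) hY0.le P S (fun r _ => hH0 r) (fun p _ r _ => by rw [hW]; positivity)
    (fun p _ r _ => hX0 p r) (fun p _ r _ r' _ _ => rfl)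
    (fun p _ r _ r' _ _ he => by
      simp only [hW]
      have he' : r.factorization p = r'.factorization p := he
      rw [he'])
    (by
      intro p hp r hr T hT _ hinj
      obtain ⟨hpp, hzp, hpN⟩ := hPp p hp
      by_cases hpB : p ∣ B
      · have e1 : X p r = 8 * (p : ℝ) ^ (-(5 / 12) : ℝ) := by
          simp only [hXd]
          rw [if_pos hpB]
        rw [e1]
        have e2 : ∑ r' ∈ T, W p r' = ∑ e ∈ T.image (fun r => r.factorization p),
            (((p ^ ((e - ex0 g i q m p) + (ex0 g i q m p - e)) : ℕ) : ℝ)) ^ (-(5 / 12 : ℝ)) := by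
          rw [sum_image hinj]
        rw [e2]
        exact Db.branch_sum hpp.two_le _ _
      · have e1 : X p r = 0 := by
          simp only [hXd]
          rw [if_neg hpB]
        rw [e1, add_zero]
        have hcard : T.card ≤ 1 := by
          rw [card_le_one]
          intro x hx y hy
          refine hinj hx hy ?_
          change x.factorization p = y.factorization p
          rw [hdet x (hT hx) p hp hpB, hdet y (hT hy) p hp hpB]
        have hle : ∀ r' ∈ T, W p r' ≤ 1 := by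
          intro r' hr'
          simp only [hW]
          rw [hdet r' (hT hr') p hp hpB]
          simp
        calc ∑ r' ∈ T, W p r' ≤ ∑ r' ∈ T, (1 : ℝ) := sum_le_sum hle
          _ = T.card := by rw [sum_const, nsmul_eq_mul, mul_one]
          _ ≤ 1 := by exact_mod_cast hcard)
    (by
      intro r hr
      have hR : RowHyp g c1 c i (z g i) t q F G B
          (S.filter fun r' => ∀ p ∈ P, r'.factorization p = r.factorization p) n :=
        { i1 := (pd r hr).i1, i2 := i2, zt := zt, tx := tz, xz := le_rfl, hq := hq,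
          sub := fun x hx => sub (mem_filter.1 hx).1
          pd := fun x hx => pd x (mem_filter.1 hx).1
          kd := fun x hx => kd x (mem_filter.1 hx).1
          lq := lq
          lr := fun x hx => lr x (mem_filter.1 hx).1
          unq := unq
          un := fun x hx => un x (mem_filter.1 hx).1
          bb := fun x hx => bb x (mem_filter.1 hx).1
          lab := by
            intro x hx y hy p hp
            obtain ⟨x1, x2⟩ := mem_filter.1 hx
            obtain ⟨y1, y2⟩ := mem_filter.1 hy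
            by_cases hpp : p.Prime
            · by_cases hpN : p ≤ N g
              · have hpP : p ∈ P := mem_filter.2 ⟨mem_filter.2 ⟨mem_Icc.2 ⟨hpp.pos, hpN⟩, hpp⟩, hp⟩
                rw [x2 p hpP, y2 p hpP]
              · have hx1 := mem_Icc.1 (hV (pd x x1).hr)
                have hy1 := mem_Icc.1 (hV (pd y y1).hr)
                rw [Nat.factorization_eq_zero_of_lt (by omega),
                  Nat.factorization_eq_zero_of_lt (by omega)]
            · rw [Nat.factorization_eq_zero_of_not_prime _ hpp,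
                Nat.factorization_eq_zero_of_not_prime _ hpp] }
      exact hR.sum_w1 hJ hX hV hcore (by rw [Real.rpow_zero]; exact Real.one_le_exp (by norm_num)))
  -- the product of the weights
  have hprodX : ∀ r, ∏ p ∈ P, (1 + X p r) ≤
      Real.exp (8 * ∑ p ∈ B.primeFactors, (p : ℝ) ^ (-(5 / 12) : ℝ)) := by
    intro r
    rw [mul_sum, Real.exp_sum]
    calc ∏ p ∈ P, (1 + X p r) = ∏ p ∈ P, (if p ∈ B.primeFactors then
          (1 + 8 * (p : ℝ) ^ (-(5 / 12) : ℝ)) else 1) := by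
          refine prod_congr rfl fun p hp => ?_
          have hpp := (hPp p hp).1
          simp only [hXd]
          by_cases hpB : p ∣ B
          · rw [if_pos hpB, if_pos (Nat.mem_primeFactors.2 ⟨hpp, hpB, hB0.ne'⟩)]
          · rw [if_neg hpB, if_neg (fun hcon => hpB (Nat.dvd_of_mem_primeFactors hcon)), add_zero]
      _ = ∏ p ∈ P.filter (fun p => p ∈ B.primeFactors),
          (1 + 8 * (p : ℝ) ^ (-(5 / 12) : ℝ)) :=
          (prod_filter (s := P) (fun p => p ∈ B.primeFactors) _).symm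
      _ ≤ ∏ p ∈ B.primeFactors, (1 + 8 * (p : ℝ) ^ (-(5 / 12) : ℝ)) := by
          have hsub : P.filter (fun p => p ∈ B.primeFactors) ⊆ B.primeFactors :=
            fun p hp => (mem_filter.1 hp).2
          rw [← prod_sdiff hsub]
          refine le_mul_of_one_le_left (prod_nonneg fun p _ => by positivity) ?_
          refine prod_one_le fun p _ => ?_
          have : 0 ≤ (p : ℝ) ^ (-(5 / 12) : ℝ) := by positivity
          linarith
      _ ≤ ∏ p ∈ B.primeFactors, Real.exp (8 * (p : ℝ) ^ (-(5 / 12) : ℝ)) := by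
          refine prod_le_prod (fun p _ => by positivity) fun p _ => ?_
          have := Real.add_one_le_exp (8 * (p : ℝ) ^ (-(5 / 12) : ℝ))
          linarith
  set Z : ℝ := Real.exp (8 * ∑ p ∈ B.primeFactors, (p : ℝ) ^ (-(5 / 12) : ℝ)) with hZ
  have hterm : ∀ r ∈ S, omw g (dd g c1 c) t (BB g i q r F G) q
        (rcof (z g i) (N g) (kc g q) q r) *
        (omt g (dd g c1 c) t (BB g i q r F G) q (rcof (z g i) (N g) (kc g q) q r) : ℝ)⁻¹ *
        omd g (dd g c1 c) t (BB g i q r F G) r (rcof (z g i) (N g) (kc g q) r q) *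
        ((rst g (dd g c1 c) t (BB g i q r F G) q (rcof (z g i) (N g) (kc g q) q r) : ℝ) *
          rst g (dd g c1 c) t (BB g i q r F G) r (rcof (z g i) (N g) (kc g q) r q)) ^
            (-(5 / 12) : ℝ) ≤ Z * (H r * ∏ p ∈ P, (W p r / (1 + X p r))) := by
    intro r hr
    have h2 := (pd r hr).rowM_le hJ hX hV h1 hc h11 (kd r hr) lq (lr r hr)
    refine h2.trans ?_
    have e1 : ∏ p ∈ (prN (N g)).filter (fun p => z g i < p),
        (((p ^ ((rcof (z g i) (N g) (kc g q) q r).factorization p +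
          (rcof (z g i) (N g) (kc g q) r q).factorization p) : ℕ)) : ℝ) ^ (-(5 / 12) : ℝ) =
        ∏ p ∈ P, W p r := by
      refine prod_congr rfl fun p hp => ?_
      rw [hexp r hr p hp]
    rw [e1, bb r hr, prod_div_distrib]
    have hp0 : 0 < ∏ p ∈ P, (1 + X p r) := prod_pos fun p _ => by
      have := hX0 p r
      linarith
    have hW0 : 0 ≤ ∏ p ∈ P, W p r := prod_nonneg fun p _ => by simp only [hW]; positivity
    have h3 : ∏ p ∈ P, W p r ≤ Z * ((∏ p ∈ P, W p r) / ∏ p ∈ P, (1 + X p r)) := by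
      rw [← mul_div_assoc, le_div_iff₀ hp0, mul_comm Z]
      exact mul_le_mul_of_nonneg_left (hprodX r) hW0
    calc H r * ∏ p ∈ P, W p r ≤ H r * (Z * ((∏ p ∈ P, W p r) / ∏ p ∈ P, (1 + X p r))) :=
          mul_le_mul_of_nonneg_left h3 (hH0 r)
      _ = _ := by ring
  refine (sum_le_sum hterm).trans ?_
  rw [← mul_sum]
  calc Z * ∑ r ∈ S, H r * ∏ p ∈ P, (W p r / (1 + X p r)) ≤ Z * Y :=
        mul_le_mul_of_nonneg_left htree (Real.exp_pos _).le
    _ ≤ _ := by
        rw [hZ, hY, ← Real.exp_add, Real.exp_le_exp]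
        have h3 := sum_primeFactors_le hB0
        linarith

/-! ### The core row bound holds -/

/-- 279's core row bound in the form `X1C` -/
theorem x1C (hV : g.V ⊆ Icc 1 (N g)) {c1 c lam s : ℝ} (h1 : 0 < c1)
    (hc1 : c1 ≤ Real.exp (-8)) (hz : 2 ≤ c1 * zs g) (hc : 0 ≤ c) (hc' : c ≤ 1 / 1000)
    (hl : 1 ≤ lam) (hl' : lam ≤ 2) (hs : 0 ≤ s) (hs' : s ≤ 1 / 4) : X1C g c1 c lam s 6 := by
  intro i q t x B S _ hzt _ _ hxs hq hB hS hout ha hb hph hphq
  have h2 := x1core hV h1 hc1 hz hc hc' hl hl' hs hs' hzt (Nat.zero_le t) hxs hq hB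
    (fun r hr => (hS r hr).1) hout (t0 := 0) (fun r hr r' hr' h => by
      have a1 := mem_Icc.1 (hV (mem_filter.1 (V1_sub g (hS r hr).1)).1)
      have a2 := mem_Icc.1 (hV (mem_filter.1 (V1_sub g (hS r' hr').1)).1)
      refine Nat.eq_of_factorization_eq (by omega) (by omega) fun p => ?_
      by_cases hp : p.Prime
      · exact h p hp hp.pos
      · rw [Nat.factorization_eq_zero_of_not_prime _ hp,
          Nat.factorization_eq_zero_of_not_prime _ hp]) ha hb hph hphq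
  refine h2.trans (Real.exp_le_exp.2 ?_)
  have e5 : ∑ p ∈ Ioc 0 t, (p : ℝ) ^ (-(5 / 12) : ℝ) ≤ 2 * (t : ℝ) ^ (7 / 12 : ℝ) := by
    have := sum_Icc_rpow_le (s := 5 / 12) (by norm_num) (by norm_num) t
    rw [show (1 : ℝ) - 5 / 12 = 7 / 12 by norm_num] at this
    have e : Ioc 0 t = Icc 1 t := by
      ext p
      rw [mem_Ioc, mem_Icc]
      exact Iff.rfl
    rw [e]
    exact this
  linarith

/-- **The row at a fixed stage with a cut** (627's `RowX`) -/
theorem rowX {c1 c lam : ℝ} (h1 : 0 < c1) (hc1 : c1 ≤ Real.exp (-8)) (hc : 0 ≤ c)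
    (hc' : c ≤ 1 / 1000) (hl : 1 ≤ lam) (hl' : lam ≤ 2) : RowX c1 c lam := by
  refine ⟨32, by norm_num, ?_⟩
  intro g _ hJ hX hV hz _ i x t q F G B S n s hs hs' hxs h
  refine (h.sum_rowW hJ hX hV (x1C hV h1 hc1 hz hc hc' hl hl' hs hs') hxs).trans ?_
  refine Real.exp_le_exp.2 ?_
  have : 0 ≤ (t : ℝ) ^ (7 / 12 : ℝ) := by positivity
  linarith

end Vale.P028.SK
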