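-- RD-BASE 6b56e62151d482e42da3b441318a6dc472ac987c
import Vale.Agent.P028.MathlibUsed
import Vale.Agent.P028.RD.H232.RowPD
import Vale.Agent.P028.RD.H359.Row1
import Vale.Agent.P028.RD.FQ.SkTop
attribute [-instance] ProperSMul.toContinuousSMul IsTopologicalTorsor.toContinuousSMul IdemSemiring.toCanonicallyOrderedAdd IdemSemiring.toMulLeftMono IdemSemiring.toMulRightMono AddQuantale.instAddLeftMono AddQuantale.instAddRightMono Quantale.instMulLeftMono Quantale.instMulRightMono FiniteDimensional.rclike_to_real IsScalarTower.complexToReal FiniteDimensional.complexToReal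

/-!
# P028: the row of a fixed deficit (`NR.RowX`)
-/

namespace Vale.P028.SK

open Finset CF RN

variable {g : Cfg}

/-- the row of a fixed deficit, for a threshold `t ≥ z_i`: no prime is omitted -/
theorem rowM_big (hJ : JsOK g.K g.Js) (hX : g.Js ≤ g.X) (hV : g.V ⊆ Icc 1 (N g))
    {δ : ℕ → ℕ → ℝ}
    {i t q m B : ℕ} {F G : ℚ} {S : Finset ℕ} {n : ℕ → ℤ}
    (zt : zs g ≤ t) (tz : z g i ≤ t) (hq : q ∈ V1 g)
    (sub : S ⊆ V1 g) (pd : ∀ r ∈ S, PD g i t q r (n r) F G)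
    (kd : ∀ r ∈ S, Kd g δ q r (n r) ≠ 0)
    (lq : (Real.log (CF.KK g i q F)) ^ (3 / 2 : ℝ) ≤ t)
    (lr : ∀ r ∈ S, (Real.log (CF.KK g i r G)) ^ (3 / 2 : ℝ) ≤ t)
    (bb : ∀ r ∈ S, BB g i q r F G = B) (hm : ∀ r ∈ S, M g i r = m) :
    ∑ r ∈ S, omw g δ t (BB g i q r F G) q (rcof (z g i) (N g) (kc g q) q r) *
        (omt g δ t (BB g i q r F G) q (rcof (z g i) (N g) (kc g q) q r) : ℝ)⁻¹ *
        omd g δ t (BB g i q r F G) r (rcof (z g i) (N g) (kc g q) r q) *
        ((rst g δ t (BB g i q r F G) q (rcof (z g i) (N g) (kc g q) q r) : ℝ) *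
          rst g δ t (BB g i q r F G) r (rcof (z g i) (N g) (kc g q) r q)) ^
            (-(5 / 12) : ℝ) ≤
      Real.exp (4 + 16 * (t : ℝ) ^ (7 / 12 : ℝ) + 32 * (Real.log B) ^ (7 / 12 : ℝ)) := by
  classical
  rcases S.eq_empty_or_nonempty with rfl | ⟨r0, hr0⟩
  · rw [sum_empty]
    exact (Real.exp_pos _).le
  have hB0 : 0 < B := by rw [← bb r0 hr0]; exact BB_pos _ _ _ _ _
  have hz := zs_le_z hJ hX i
  have hUq : ∀ r ∈ S, UO g δ t (BB g i q r F G) q (rcof (z g i) (N g) (kc g q) q r) = ∅ := by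
    intro r hr
    rw [← not_nonempty_iff_eq_empty]
    rintro ⟨p, hp⟩
    have h1 := (pd r hr).UOq_le hJ hX hV hp
    have h2 := (mem_UO.1 hp).2.1
    omega
  have hUr : ∀ r ∈ S, UO g δ t (BB g i q r F G) r (rcof (z g i) (N g) (kc g q) r q) = ∅ := by
    intro r hr
    rw [← not_nonempty_iff_eq_empty]
    rintro ⟨p, hp⟩
    have h1 := (pd r hr).UOr_le hJ hX hV hp
    have h2 := (mem_UO.1 hp).2.1
    omega
  have key : ∀ r ∈ S, omw g δ t (BB g i q r F G) q (rcof (z g i) (N g) (kc g q) q r) *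
        (omt g δ t (BB g i q r F G) q (rcof (z g i) (N g) (kc g q) q r) : ℝ)⁻¹ *
        omd g δ t (BB g i q r F G) r (rcof (z g i) (N g) (kc g q) r q) *
        ((rst g δ t (BB g i q r F G) q (rcof (z g i) (N g) (kc g q) q r) : ℝ) *
          rst g δ t (BB g i q r F G) r (rcof (z g i) (N g) (kc g q) r q)) ^
            (-(5 / 12) : ℝ) =
      ((rcof (z g i) (N g) (kc g q) q r * rcof (z g i) (N g) (kc g q) r q : ℕ) : ℝ) ^
        (-(5 / 12) : ℝ) := by
    intro r hr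
    obtain ⟨⟨a0, -⟩, ⟨b0, -⟩⟩ := (pd r hr).rcof_pos hJ hX hV
    rw [rst_eq g δ t _ q a0, rst_eq g δ t _ r b0, omt_eq, hUq r hr, hUr r hr]
    unfold omw omd pt
    rw [hUq r hr, hUr r hr]
    simp
  rw [sum_congr rfl key]
  refine (row_Alive (B := B) (m := m) hV hz zt ((mem_filter.1 (V1_sub g hq)).1)
    (mem_filter.1 hq).2 hB0 ?_).trans ?_
  · intro r hr
    have hD := pd r hr
    obtain ⟨⟨a0, -⟩, ⟨b0, -⟩⟩ := hD.rcof_pos hJ hX hV
    refine ⟨hD.hr, (mem_filter.1 (sub hr)).2, hD.ta.2.2.1, hm r hr, ?_⟩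
    intro p hp htp _ hB
    constructor
    · intro hpa
      have h2 : p ∣ rst g δ t (BB g i q r F G) q (rcof (z g i) (N g) (kc g q) q r) := by
        rw [rst_eq g δ t _ q a0, hUq r hr]
        unfold pt
        simpa using hpa
      rcases hD.alive_q hJ hX hV (kd r hr) lq hp htp h2 with h3 | h3
      · rw [bb r hr] at h3
        exact absurd h3 hB
      · exact h3
    · intro hpb
      have h2 : p ∣ rst g δ t (BB g i q r F G) r (rcof (z g i) (N g) (kc g q) r q) := by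
        rw [rst_eq g δ t _ r b0, hUr r hr]
        unfold pt
        simpa using hpb
      rcases hD.alive_r hJ hX hV (kd r hr) (lr r hr) hp htp h2 with h3 | h3
      · rw [bb r hr] at h3
        exact absurd h3 hB
      · exact h3
  · refine Real.exp_le_exp.2 ?_
    have h3 := sum_primeFactors_le hB0
    have h4 : ∑ p ∈ B.primeFactors.filter (fun p => t < p), (p : ℝ) ^ (-(5 / 12) : ℝ) ≤
        ∑ p ∈ B.primeFactors, (p : ℝ) ^ (-(5 / 12) : ℝ) :=
      sum_le_sum_of_subset_of_nonneg (filter_subset _ _) fun p _ _ => by positivity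
    linarith

/-- **[RowX] for one configuration** from the core row bound -/
theorem rowXg_of (hJ : JsOK g.K g.Js) (hX : g.Js ≤ g.X) (hV : g.V ⊆ Icc 1 (N g))
    {c1 c K : ℝ} (h1 : 0 ≤ c1) (hc : 0 ≤ c) (h11 : 11 ≤ zs g)
    (hcore : X1C g c1 c (11 / 10) 0 K) : NR.RowXg g (dd g c1 c) (max 64 K) := by
  intro q hq i hi1 hi2 t m F G R zt hR lq unq hS
  have hC64 : (64 : ℝ) ≤ max 64 K := le_max_left _ _
  have hCK : K ≤ max 64 K := le_max_right _ _
  have ht0 : 0 ≤ (t : ℝ) ^ (7 / 12 : ℝ) := by positivity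
  rcases R.eq_empty_or_nonempty with rfl | ⟨r0, hr0⟩
  · rw [sum_empty]
    exact (Real.exp_pos _).le
  set B := BB g i q r0 F G with hB
  have hBeq : (((M g i q : ℚ) * F).den : ℝ) * (((m : ℚ) * G).den : ℝ) = (B : ℝ) := by
    rw [hB]
    unfold BB
    rw [(hS r0 hr0).1]
    push_cast
    ring
  rw [hBeq]
  have hB1 : 1 ≤ (B : ℝ) := by exact_mod_cast BB_pos i q r0 F G
  have hL0 : 0 ≤ (Real.log B) ^ (7 / 12 : ℝ) := Real.rpow_nonneg (Real.log_nonneg hB1) _
  have bb : ∀ r ∈ R, BB g i q r F G = B := by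
    intro r hr
    rw [hB]
    unfold BB
    rw [(hS r hr).1, (hS r0 hr0).1]
  have hn : ∀ r ∈ R, ∃ n : ℤ, PD g i t q r n F G ∧ Kd g (dd g c1 c) q r n ≠ 0 :=
    fun r hr => (hS r hr).2.2.2
  choose! n hn1 using hn
  unfold NR.rowW
  rcases le_total t (z g i) with h | h
  · refine (rowM_small hJ hX hV h1 hc h11 hcore hi2 zt h hq hR (fun r hr => (hn1 r hr).1)
      (fun r hr => (hn1 r hr).2) lq (fun r hr => (hS r hr).2.1) unq
      (fun r hr => (hS r hr).2.2.1) bb (m := m) (fun r hr => (hS r hr).1)).trans ?_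
    refine Real.exp_le_exp.2 ?_
    have e1 := mul_le_mul_of_nonneg_right hC64 ht0
    have e2 := mul_le_mul_of_nonneg_right hC64 hL0
    linarith
  · refine (rowM_big hJ hX hV zt h hq hR (fun r hr => (hn1 r hr).1)
      (fun r hr => (hn1 r hr).2) lq (fun r hr => (hS r hr).2.1) bb (m := m)
      (fun r hr => (hS r hr).1)).trans ?_
    refine Real.exp_le_exp.2 ?_
    have e1 := mul_le_mul_of_nonneg_right hC64 ht0
    have e2 := mul_le_mul_of_nonneg_right hC64 hL0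
    linarith

/-- `zs` is large -/
theorem ev_zsM (A : ℝ) : Ev (fun K Js => ∀ g : Cfg, g.K = K → g.Js = Js → A ≤ (zs g : ℝ)) := by
  refine Ev.of_eventually fun K => ⟨max 1 (A + 1), fun Js hJs g hK hJ => ?_⟩
  have h1 : 1 ≤ Js := (le_max_left _ _).trans hJs
  have h2 : A + 1 ≤ Js := (le_max_right _ _).trans hJs
  have h3 : Js ≤ (max 1 g.Js) ^ g.K.C2 := by
    rw [hJ, max_eq_right h1]
    calc Js = Js ^ (1 : ℝ) := (Real.rpow_one _).symm
      _ ≤ _ := Real.rpow_le_rpow_of_exponent_le h1 g.K.C2_ge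
  have h4 := Nat.lt_floor_add_one ((max 1 g.Js) ^ g.K.C2)
  have h5 : (zs g : ℝ) = (⌊(max 1 g.Js) ^ g.K.C2⌋₊ : ℝ) := rfl
  linarith

/-- **The rows of a fixed deficit** (359's `RowX`) -/
theorem nrRowX {c1 c : ℝ} (h1 : 0 < c1) (hc1 : c1 ≤ Real.exp (-8)) (hc : 0 ≤ c)
    (hc' : c ≤ 1 / 1000) : NR.RowX (fun g => dd g c1 c) := by
  unfold NR.RowX
  refine ((ev_zsM (max 11 (2 / c1))).and ev_numOK).mono ?_
  rintro K Js ⟨hzs, hNum⟩
  refine ⟨max 64 6, Js, by positivity, ?_⟩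
  intro g hK hJs hX hV
  have hN : NumOK g.K g.Js := by rw [hK, hJs]; exact hNum
  have h2 := hzs g hK hJs
  have h3 : (11 : ℝ) ≤ zs g := (le_max_left _ _).trans h2
  have h4 : 2 / c1 ≤ zs g := (le_max_right _ _).trans h2
  have h5 : 2 ≤ c1 * zs g := by
    rw [div_le_iff₀ h1] at h4
    linarith
  exact rowXg_of hN.js (by rw [hJs]; exact hX) hV h1.le hc (by exact_mod_cast h3)
    (x1C hV h1 hc1 h5 hc hc' (by norm_num) (by norm_num) le_rfl (by norm_num))

end Vale.P028.SK
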